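import Vale.Agent.P331.Windows.Main

/-! Single-sample matroid prophet inequality against the almighty adversary, up to `log log rank`. -/

namespace Vale.Agent.Results.P331.AlmightyLogLog

open MeasureTheory Vale.Agent.P331.Windows
open scoped ENNReal NNReal

/-- Every finite matroid has a randomised one-sample online rule, not knowing the laws, whose
expected value against the worst fully informed order is within `O(log log rank)` of the optimum. -/
theorem result : ∀ (E : Type) [Fintype E] (M : Matroid E),
    ∃ (R : Type) (_ : Fintype R) (w : R → ℝ≥0∞) (rule : R → OnlineRule M),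
      ∑ r, w r = 1 ∧ ∀ (D : E → Measure ℝ≥0) [∀ e, IsProbabilityMeasure (D e)],
        ∫⁻ V, opt M V ∂Measure.pi D ≤
          ((800 * (1 + Nat.log 2 (1 + Nat.log 2 (1 + M.eRank.toNat))) : ℕ) : ℝ≥0∞) *
            ∑ r, w r * ∫⁻ p, worst (rule r) p.1 p.2 ∂(Measure.pi D).prod (Measure.pi D) :=
  fun _ _ M => main M

end Vale.Agent.Results.P331.AlmightyLogLog
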